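import Mathlib

/-!
# Row 337, LY part 1: one-variable polynomial inequalities from the location of the roots
-/

set_option autoImplicit false

namespace Crest.Agent.N337.LY

open Polynomial

/-- induction over the linear factors; `S` is a root-free region. -/
theorem poly_ind (S : ℂ → Prop) (p : ℂ[X] → Prop) (hC : ∀ c : ℂ, p (C c))
    (hX : ∀ a : ℂ, ¬ S (-a) → p (X + C a))
    (hmul : ∀ Q R : ℂ[X], (∀ z, S z → Q.eval z ≠ 0) → (∀ z, S z → R.eval z ≠ 0) →
      p Q → p R → p (Q * R))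
    (Q : ℂ[X]) (hQ : ∀ z, S z → Q.eval z ≠ 0) : p Q := by
  have hs : Q ∈ Submonoid.closure ({C a | a : ℂ} ∪ {X + C a | a : ℂ} : Set ℂ[X]) :=
    IsAlgClosed.splits Q
  induction hs using Submonoid.closure_induction with
  | mem x hx =>
    rcases hx with ⟨a, rfl⟩ | ⟨a, rfl⟩
    · exact hC a
    · exact hX a fun h => hQ _ h (by simp)
  | one => simpa using hC 1
  | mul x y _ _ ihx ihy =>
    have h1 : ∀ z, S z → x.eval z ≠ 0 := fun z hz h => hQ z hz (by simp [h])
    have h2 : ∀ z, S z → y.eval z ≠ 0 := fun z hz h => hQ z hz (by simp [h])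
    exact hmul x y h1 h2 (ihx h1) (ihy h2)

theorem norm_mul_re_le {a s : ℂ} (ha : 0 ≤ a.re) (hs : 0 < s.re) :
    ‖a‖ * s.re ≤ ‖s + a‖ * ‖s‖ := by
  apply le_of_sq_le_sq_of_nonneg_aux
  · positivity
  rw [mul_pow, mul_pow, Complex.sq_norm, Complex.sq_norm, Complex.sq_norm]
  simp only [Complex.normSq_apply, Complex.add_re, Complex.add_im]
  have h1 := sq_nonneg (s.re * s.re + (s.im + a.im) * s.im)
  have h2 : 0 ≤ s.re * a.re * (s.re * s.re + s.im * s.im) :=
    mul_nonneg (mul_nonneg hs.le ha) (add_nonneg (mul_self_nonneg _) (mul_self_nonneg _))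
  have h3 : 0 ≤ a.re * a.re * (s.im * s.im) := by
    have := mul_self_nonneg a.re; have := mul_self_nonneg s.im; positivity
  nlinarith
where
  le_of_sq_le_sq_of_nonneg_aux {x y : ℝ} (hy : 0 ≤ y) (h : x ^ 2 ≤ y ^ 2) : x ≤ y :=
    le_trans (le_abs_self x) (abs_le_of_sq_le_sq' h hy |> fun h => abs_le.2 h)

/-- quantitative Hurwitz: no roots in the right half plane. -/
theorem L3 (Q : ℂ[X]) (hQ : ∀ z : ℂ, 0 < z.re → Q.eval z ≠ 0) {s : ℂ} (hs : 0 < s.re)
    {D : ℕ} (hD : Q.natDegree ≤ D) : ‖Q.eval 0‖ * (s.re / ‖s‖) ^ D ≤ ‖Q.eval s‖ := by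
  have hs0 : 0 < ‖s‖ := lt_of_lt_of_le hs ((le_abs_self _).trans (Complex.abs_re_le_norm s))
  have hρ0 : 0 ≤ s.re / ‖s‖ := by positivity
  have hρ1 : s.re / ‖s‖ ≤ 1 :=
    (div_le_one hs0).2 ((le_abs_self _).trans (Complex.abs_re_le_norm s))
  have key : ‖Q.eval 0‖ * (s.re / ‖s‖) ^ Q.natDegree ≤ ‖Q.eval s‖ := by
    refine poly_ind (fun z => 0 < z.re)
      (fun Q => ‖Q.eval 0‖ * (s.re / ‖s‖) ^ Q.natDegree ≤ ‖Q.eval s‖) ?_ ?_ ?_ Q hQ
    · intro c; simp
    · intro a ha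
      have ha' : 0 ≤ a.re := by simpa using ha
      simp only [natDegree_X_add_C, eval_add, eval_X, eval_C, zero_add, pow_one]
      rw [← mul_div_assoc, div_le_iff₀ hs0]
      exact norm_mul_re_le ha' hs
    · intro P R hP hR ihP ihR
      have hP0 : P ≠ 0 := fun h => hP 1 (by simp) (by simp [h])
      have hR0 : R ≠ 0 := fun h => hR 1 (by simp) (by simp [h])
      simp only [natDegree_mul hP0 hR0, eval_mul, norm_mul, pow_add]
      calc _ = (‖P.eval 0‖ * (s.re / ‖s‖) ^ P.natDegree) *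
            (‖R.eval 0‖ * (s.re / ‖s‖) ^ R.natDegree) := by ring
        _ ≤ _ := mul_le_mul ihP ihR (by positivity) (norm_nonneg _)
  exact le_trans (mul_le_mul_of_nonneg_left (pow_le_pow_of_le_one hρ0 hρ1 hD) (norm_nonneg _)) key

/-- all roots real and negative. -/
theorem L4 (Q : ℂ[X]) (hQ : ∀ z : ℂ, ¬ (z.im = 0 ∧ z.re < 0) → Q.eval z ≠ 0) :
    ‖Q.eval 1‖ ≤ ‖Q.eval 0‖ * Real.exp ((Q.derivative.eval 0 / Q.eval 0).re) := by
  refine poly_ind (fun z => ¬ (z.im = 0 ∧ z.re < 0))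
    (fun Q => ‖Q.eval 1‖ ≤ ‖Q.eval 0‖ * Real.exp ((Q.derivative.eval 0 / Q.eval 0).re))
    ?_ ?_ ?_ Q hQ
  · intro c; simp
  · intro a ha
    have ha' : a.im = 0 ∧ 0 < a.re := by simpa using ha
    obtain ⟨r, rfl⟩ : ∃ r : ℝ, a = r := ⟨a.re, Complex.ext rfl (by simp [ha'.1])⟩
    have hr : 0 < r := by simpa using ha'.2
    simp only [eval_add, eval_X, eval_C, zero_add, derivative_add, derivative_X, derivative_C,
      add_zero, eval_one]
    have e1 : (1 : ℂ) + r = ((1 + r : ℝ) : ℂ) := by push_cast; ring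
    have e2 : (1 : ℂ) / r = ((1 / r : ℝ) : ℂ) := by push_cast; ring
    rw [e1, e2, Complex.norm_real, Complex.norm_real, Complex.ofReal_re,
      Real.norm_of_nonneg (by positivity), Real.norm_of_nonneg hr.le]
    have h := Real.add_one_le_exp (1 / r)
    calc 1 + r = r * (1 / r + 1) := by field_simp
      _ ≤ _ := mul_le_mul_of_nonneg_left h hr.le
  · intro P R hP hR ihP ihR
    have hP0 : P.eval 0 ≠ 0 := hP 0 (by simp)
    have hR0 : R.eval 0 ≠ 0 := hR 0 (by simp)
    have e : (P * R).derivative.eval 0 / (P * R).eval 0 =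
        P.derivative.eval 0 / P.eval 0 + R.derivative.eval 0 / R.eval 0 := by
      simp only [derivative_mul, eval_add, eval_mul]; field_simp
    rw [e, Complex.add_re, Real.exp_add]
    simp only [eval_mul, norm_mul]
    calc _ ≤ (‖P.eval 0‖ * Real.exp ((P.derivative.eval 0 / P.eval 0).re)) *
          (‖R.eval 0‖ * Real.exp ((R.derivative.eval 0 / R.eval 0).re)) :=
          mul_le_mul ihP ihR (norm_nonneg _) (by positivity)
      _ = _ := by ring

theorem L5 (Q : ℂ[X]) (hQ : ∀ z : ℂ, 0 < z.re → Q.eval z ≠ 0) : ‖Q.eval (-1)‖ ≤ ‖Q.eval 1‖ := by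
  refine poly_ind (fun z => 0 < z.re) (fun Q => ‖Q.eval (-1)‖ ≤ ‖Q.eval 1‖) ?_ ?_ ?_ Q hQ
  · intro c; simp
  · intro a ha
    have ha' : 0 ≤ a.re := by simpa using ha
    simp only [eval_add, eval_X, eval_C]
    rw [← sq_le_sq₀ (norm_nonneg _) (norm_nonneg _), Complex.sq_norm, Complex.sq_norm]
    simp only [Complex.normSq_apply, Complex.add_re, Complex.add_im, Complex.neg_re,
      Complex.neg_im, Complex.one_re, Complex.one_im]
    nlinarith
  · intro P R _ _ ihP ihR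
    simp only [eval_mul, norm_mul]
    exact mul_le_mul ihP ihR (norm_nonneg _) (norm_nonneg _)

/-- the Asano contraction, regularised. -/
theorem asano {a b c d : ℂ}
    (h : ∀ u v : ℂ, 0 < u.re → 0 < v.re → a + b * u + c * v + d * (u * v) ≠ 0)
    {t : ℝ} (ht0 : 0 ≤ t) (ht1 : t < 1) :
    (1 + t) / 2 * (a + d) + (1 - t) / 2 * (b + c) ≠ 0 := by
  have hq : ∀ z : ℂ, 0 < z.re →
      (C a + C (b + c) * X + C d * X ^ 2 : ℂ[X]).eval z ≠ 0 := by
    intro z hz h0
    apply h z z hz hz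
    simp only [eval_add, eval_mul, eval_C, eval_X, eval_pow] at h0
    linear_combination h0
  have h5 := L5 _ hq
  have h1 := hq 1 (by simp)
  simp only [eval_add, eval_mul, eval_C, eval_X, eval_pow] at h5 h1
  intro h0
  have e : a + (b + c) * 1 + d * 1 ^ 2 = -(t : ℂ) * (a + (b + c) * (-1) + d * (-1) ^ 2) := by
    linear_combination 2 * h0
  have hpos := norm_pos_iff.2 h1
  have e2 := congrArg norm e
  rw [norm_mul, norm_neg, Complex.norm_real, Real.norm_of_nonneg ht0] at e2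
  nlinarith [norm_nonneg (a + (b + c) * (-1) + d * (-1) ^ 2)]

end Crest.Agent.N337.LY
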