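import Mathlib

/-!
# Row 337, LY part 2: partial symmetrisation preserves half-plane stability (two variables)
-/

set_option autoImplicit false

namespace Crest.Agent.N337.LY

theorem re_mul_le_norm (x y : ℂ) : 2 * (x.re * y.re) ≤ ‖x * y‖ + (x * y).re := by
  have h : x.re * y.re + x.im * y.im ≤ ‖x‖ * ‖y‖ := by
    have h1 := Complex.re_le_norm (x * (starRingEnd ℂ) y)
    simpa [Complex.mul_re] using h1
  rw [norm_mul, Complex.mul_re]
  linarith

theorem norm_sq_add_re (w : ℂ) : ‖w ^ 2‖ + (w ^ 2).re = 2 * w.re ^ 2 := by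
  rw [norm_pow, Complex.sq_norm, Complex.normSq_apply, pow_two w, Complex.mul_re]
  ring

theorem nec_re {B C E : ℂ}
    (h : ∀ v1 v2 : ℂ, 0 < v1.re → 0 < v2.re → (v1 + C) * (v2 + B) ≠ E) : 0 ≤ B.re := by
  by_contra hB
  push Not at hB
  set T : ℝ := |C.re| + |E.re| / (-B.re) + 1 with hT
  have hb : 0 < -B.re := by linarith
  have h1 : 0 ≤ |E.re| / (-B.re) := by positivity
  have hT0 : 0 < T := by have := abs_nonneg C.re; linarith
  have hTc : (T : ℂ) ≠ 0 := by exact_mod_cast hT0.ne'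
  refine h (T - C) (E / T - B) ?_ ?_ ?_
  · have := le_abs_self C.re
    simp only [Complex.sub_re, Complex.ofReal_re]; linarith
  · rw [Complex.sub_re, Complex.div_ofReal_re, sub_pos, lt_div_iff₀ hT0]
    have h2 : |E.re| / (-B.re) * (-B.re) = |E.re| := div_mul_cancel₀ _ hb.ne'
    have h3 := neg_abs_le E.re
    have h4 : 0 ≤ |C.re| * (-B.re) := by positivity
    rw [hT]; nlinarith
  · field_simp; ring

theorem nec_E {B C E : ℂ}
    (h : ∀ v1 v2 : ℂ, 0 < v1.re → 0 < v2.re → (v1 + C) * (v2 + B) ≠ E)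
    (hB : 0 ≤ B.re) (hC : 0 ≤ C.re) : ‖E‖ + E.re ≤ 2 * (B.re * C.re) := by
  obtain ⟨w, hw, hw0⟩ : ∃ w : ℂ, w ^ 2 = E ∧ 0 ≤ w.re := by
    obtain ⟨w, hw⟩ := IsAlgClosed.exists_pow_nat_eq E (n := 2) (by norm_num)
    rcases le_total 0 w.re with h0 | h0
    · exact ⟨w, hw, h0⟩
    · exact ⟨-w, by rw [neg_sq, hw], by simpa using h0⟩
  rw [← hw, norm_sq_add_re]
  by_contra hlt
  push Not at hlt
  have hbc : 0 ≤ B.re * C.re := mul_nonneg hB hC
  have hwp : 0 < w.re := by
    rcases hw0.lt_or_eq with h0 | h0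
    · exact h0
    · rw [← h0] at hlt; nlinarith
  set ε : ℝ := (w.re ^ 2 - B.re * C.re) / (B.re + 1) with hε
  have hε0 : 0 < ε := div_pos (by linarith) (by linarith)
  have hε1 : ε * (B.re + 1) = w.re ^ 2 - B.re * C.re := by rw [hε]; field_simp
  set l : ℝ := (C.re + ε) / w.re with hl
  have hl0 : 0 < l := div_pos (by linarith) hwp
  have hl1 : l * w.re = C.re + ε := by rw [hl]; field_simp
  have hlc : (l : ℂ) ≠ 0 := by exact_mod_cast hl0.ne'
  refine h (l * w - C) (w / l - B) ?_ ?_ ?_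
  · simp only [Complex.sub_re, Complex.re_ofReal_mul]; linarith
  · rw [Complex.sub_re, Complex.div_ofReal_re, sub_pos, lt_div_iff₀ hl0]
    have : B.re * l * w.re < w.re * w.re := by
      rw [mul_assoc, hl1]; nlinarith
    exact lt_of_mul_lt_mul_right this hwp.le
  · rw [← hw]; field_simp; ring

theorem two_var_monic {A B C : ℂ}
    (h : ∀ v1 v2 : ℂ, 0 < v1.re → 0 < v2.re → A + B * v1 + C * v2 + v1 * v2 ≠ 0)
    {p : ℝ} (hp0 : 0 ≤ p) (hp1 : p ≤ 1) {v1 v2 : ℂ} (h1 : 0 < v1.re) (h2 : 0 < v2.re) :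
    A + ((1 - p) * B + p * C) * v1 + ((1 - p) * C + p * B) * v2 + v1 * v2 ≠ 0 := by
  have h' : ∀ v1 v2 : ℂ, 0 < v1.re → 0 < v2.re → (v1 + C) * (v2 + B) ≠ B * C - A := by
    intro v1 v2 a b e
    exact h v1 v2 a b (by linear_combination e)
  have h'' : ∀ v1 v2 : ℂ, 0 < v1.re → 0 < v2.re → (v1 + B) * (v2 + C) ≠ B * C - A := by
    intro v1 v2 a b e
    exact h v2 v1 b a (by linear_combination e)
  have hB := nec_re h'
  have hC := nec_re h''
  have hE := nec_E h' hB hC
  intro h0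
  set x : ℂ := v1 + ((1 - p) * C + p * B) with hx
  set y : ℂ := v2 + ((1 - p) * B + p * C) with hy
  have hq : 0 ≤ p * (1 - p) := mul_nonneg hp0 (by linarith)
  have e : x * y = (B * C - A) + ((p * (1 - p) : ℝ) : ℂ) * (B - C) ^ 2 := by
    rw [hx, hy]; push_cast; linear_combination h0
  have hxr : x.re = v1.re + ((1 - p) * C.re + p * B.re) := by
    simp [hx, Complex.mul_re]
  have hyr : y.re = v2.re + ((1 - p) * B.re + p * C.re) := by
    simp [hy, Complex.mul_re]
  have k1 := re_mul_le_norm x y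
  have k2 : ‖x * y‖ ≤ ‖B * C - A‖ + p * (1 - p) * ‖(B - C) ^ 2‖ := by
    rw [e]
    refine (norm_add_le _ _).trans ?_
    rw [norm_mul, Complex.norm_real, Real.norm_of_nonneg hq]
  have k3 : (x * y).re = (B * C - A).re + p * (1 - p) * ((B - C) ^ 2).re := by
    rw [e, Complex.add_re, Complex.re_ofReal_mul]
  have k4 := norm_sq_add_re (B - C)
  rw [Complex.sub_re] at k4
  have k5 : 0 ≤ (1 - p) * C.re + p * B.re :=
    add_nonneg (mul_nonneg (by linarith) hC) (mul_nonneg hp0 hB)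
  have k6 : 0 ≤ (1 - p) * B.re + p * C.re :=
    add_nonneg (mul_nonneg (by linarith) hB) (mul_nonneg hp0 hC)
  have k7 : ((1 - p) * C.re + p * B.re) * ((1 - p) * B.re + p * C.re) < x.re * y.re := by
    rw [hxr, hyr]
    have := mul_pos h1 h2
    have := mul_nonneg h1.le k6
    have := mul_nonneg h2.le k5
    nlinarith
  have k8 : p * (1 - p) * (‖(B - C) ^ 2‖ + ((B - C) ^ 2).re) =
      p * (1 - p) * (2 * (B.re - C.re) ^ 2) := by rw [k4]
  nlinarith

/-- partial symmetrisation of a stable bi-affine function is stable. -/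
theorem two_var {A B C D : ℂ}
    (h : ∀ v1 v2 : ℂ, 0 < v1.re → 0 < v2.re → A + B * v1 + C * v2 + D * (v1 * v2) ≠ 0)
    {p : ℝ} (hp0 : 0 ≤ p) (hp1 : p ≤ 1) {v1 v2 : ℂ} (h1 : 0 < v1.re) (h2 : 0 < v2.re) :
    A + ((1 - p) * B + p * C) * v1 + ((1 - p) * C + p * B) * v2 + D * (v1 * v2) ≠ 0 := by
  by_cases hD : D = 0
  · subst hD
    have conv : ∀ a b : ℝ, 0 < a → 0 < b → 0 < (1 - p) * a + p * b := by
      intro a b ha hb
      rcases hp0.lt_or_eq with h | h
      · have := mul_pos h hb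
        have := mul_nonneg (sub_nonneg.2 hp1) ha.le
        linarith
      · subst h; simpa using ha
    intro h0
    refine h ((1 - p) * v1 + p * v2) ((1 - p) * v2 + p * v1) ?_ ?_ (by linear_combination h0)
    · simpa [Complex.mul_re] using conv _ _ h1 h2
    · simpa [Complex.mul_re] using conv _ _ h2 h1
  · have h' : ∀ v1 v2 : ℂ, 0 < v1.re → 0 < v2.re →
        A / D + B / D * v1 + C / D * v2 + v1 * v2 ≠ 0 := by
      intro v1 v2 a b e
      apply h v1 v2 a b
      have : A + B * v1 + C * v2 + D * (v1 * v2) =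
        D * (A / D + B / D * v1 + C / D * v2 + v1 * v2) := by field_simp
      rw [this, e, mul_zero]
    intro h0
    apply two_var_monic h' hp0 hp1 h1 h2
    have : A / D + ((1 - p) * (B / D) + p * (C / D)) * v1 + ((1 - p) * (C / D) + p * (B / D)) * v2 +
        v1 * v2 = (A + ((1 - p) * B + p * C) * v1 + ((1 - p) * C + p * B) * v2 +
          D * (v1 * v2)) / D := by field_simp
    rw [this, h0, zero_div]

end Crest.Agent.N337.LY
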