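import Crest.Agent.N337.Slot.Defs
import Crest.Agent.N337.LY.Two
import Crest.Agent.N337.LY.Poly

/-!
# Row 337, LY part 3: stability preservers and the Asano contraction of the trace
-/

set_option autoImplicit false

namespace Crest.Agent.N337.LY

open Crest.Agent.N337.Slot Matrix

variable {Λ : Type} [Fintype Λ] [DecidableEq Λ]

abbrev COp (Λ : Type) : Type := Matrix (Λ → Bool) (Λ → Bool) ℂ

/-- complexification. -/
noncomputable abbrev cm : BOp Λ →+* COp Λ := Complex.ofRealHom.mapMatrix

/-- tensor product of complex one-slot matrices. -/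
def tc (A : Λ → Bool → Bool → ℂ) : COp Λ := Matrix.of fun σ τ => ∏ x, A x (σ x) (τ x)

/-- product vector with one-slot vectors `(1, v x)`. -/
def ket (v : Λ → ℂ) : (Λ → Bool) → ℂ := fun τ => ∏ x, if τ x = true then v x else 1

def Cc (a : Λ → ℂ) : COp Λ := tc fun x i j => if i = j then 1 else if i = true then a x else 0
def Ac (a : Λ → ℂ) : COp Λ := tc fun x i j => if i = j then 1 else if j = true then a x else 0
def Dg (s : ℂ) : COp Λ := Matrix.diagonal fun σ => s ^ cnt σ

def InH (v : Λ → ℂ) : Prop := ∀ x, 0 < (v x).re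
def Stable (f : (Λ → Bool) → ℂ) : Prop := ∀ v, InH v → f ⬝ᵥ ket v ≠ 0
def Pres (X : COp Λ) : Prop := ∀ f, Stable f → Stable (f ᵥ* X)

theorem cm_apply (A : BOp Λ) (σ τ : Λ → Bool) : cm A σ τ = (A σ τ : ℂ) := rfl

theorem cm_tens (A : Λ → Bool → Bool → ℝ) : cm (tens A) = tc fun x i j => (A x i j : ℂ) := by
  ext σ τ; simp [cm_apply, tens, tc]

theorem cm_Ecr (a : Λ → ℝ) : cm (Ecr a) = Cc fun x => (a x : ℂ) := by
  rw [Ecr, cm_tens, Cc]; congr 1; funext x i j; split_ifs <;> simp

theorem cm_Ean (a : Λ → ℝ) : cm (Ean a) = Ac fun x => (a x : ℂ) := by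
  rw [Ean, cm_tens, Ac]; congr 1; funext x i j; split_ifs <;> simp

theorem cm_fug (ζ : ℝ) : cm (fug ζ : BOp Λ) = Dg ζ := by
  ext σ τ; by_cases h : σ = τ <;> simp [cm_apply, fug, Dg, Matrix.diagonal_apply, h]

theorem cm_smul (c : ℝ) (A : BOp Λ) : cm (c • A) = (c : ℂ) • cm A := by
  ext σ τ; simp [cm_apply]

theorem cm_trace (A : BOp Λ) : (cm A).trace = (A.trace : ℂ) := by
  simp [Matrix.trace, cm_apply]

omit [DecidableEq Λ] in
theorem pow_cnt {R : Type*} [CommMonoid R] (s : R) (σ : Λ → Bool) :
    s ^ cnt σ = ∏ x, if σ x = true then s else 1 := by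
  rw [Finset.prod_ite, Finset.prod_const, Finset.prod_const_one, mul_one, cnt]

theorem tc_mulVec (A : Λ → Bool → Bool → ℂ) (φ : Λ → Bool → ℂ) :
    tc A *ᵥ (fun τ => ∏ x, φ x (τ x)) = fun σ => ∏ x, ∑ j, A x (σ x) j * φ x j := by
  funext σ
  rw [Finset.prod_univ_sum]
  simp only [mulVec, dotProduct, tc, of_apply, Fintype.piFinset_univ, Finset.prod_mul_distrib]

theorem Cc_ket (a v : Λ → ℂ) : Cc a *ᵥ ket v = ket (fun x => v x + a x) := by
  have := tc_mulVec (fun x i j => if i = j then 1 else if i = true then a x else 0)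
    (fun x j => if j = true then v x else 1)
  refine this.trans ?_
  funext σ
  refine Finset.prod_congr rfl fun x _ => ?_
  cases σ x <;> simp

theorem Ac_ket (a v : Λ → ℂ) (h : ∀ x, 1 + a x * v x ≠ 0) :
    Ac a *ᵥ ket v = (∏ x, (1 + a x * v x)) • ket (fun x => v x / (1 + a x * v x)) := by
  have := tc_mulVec (fun x i j => if i = j then 1 else if j = true then a x else 0)
    (fun x j => if j = true then v x else 1)
  refine this.trans ?_
  funext σ
  simp only [Pi.smul_apply, smul_eq_mul, ket, ← Finset.prod_mul_distrib]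
  refine Finset.prod_congr rfl fun x _ => ?_
  have := h x
  cases σ x
  · simp [add_comm]
  · simp [mul_div_cancel₀ _ this]

theorem Dg_ket (s : ℂ) (v : Λ → ℂ) : Dg s *ᵥ ket v = ket (fun x => s * v x) := by
  funext σ
  rw [Dg, mulVec_diagonal, pow_cnt, ket, ket, ← Finset.prod_mul_distrib]
  refine Finset.prod_congr rfl fun x _ => ?_
  cases σ x <;> simp

omit [Fintype Λ] in
theorem eq_comp_swap_iff (x y : Λ) (σ τ : Λ → Bool) :
    σ = τ ∘ Equiv.swap x y ↔ τ = σ ∘ Equiv.swap x y := by
  constructor <;> rintro rfl <;> funext z <;> simp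

theorem swp_mulVec (x y : Λ) (g : (Λ → Bool) → ℂ) :
    cm (swp x y) *ᵥ g = fun σ => g (σ ∘ Equiv.swap x y) := by
  funext σ
  simp only [mulVec, dotProduct, cm_apply, swp, of_apply, eq_comp_swap_iff x y σ]
  rw [Finset.sum_eq_single (σ ∘ Equiv.swap x y)]
  · simp
  · intro τ _ h; simp [h]
  · simp

theorem swp_ket (x y : Λ) (v : Λ → ℂ) : cm (swp x y) *ᵥ ket v = ket (v ∘ Equiv.swap x y) := by
  rw [swp_mulVec]
  funext σ
  simp only [ket]
  refine Fintype.prod_equiv (Equiv.swap x y) _ _ fun z => ?_
  simp

theorem ket_update (v : Λ → ℂ) (x : Λ) (w : ℂ) :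
    ket (Function.update v x w) =
      (1 - w) • ket (Function.update v x 0) + w • ket (Function.update v x 1) := by
  have key : ∀ (w : ℂ) (τ : Λ → Bool), ket (Function.update v x w) τ =
      (if τ x = true then w else 1) * ∏ z ∈ Finset.univ.erase x, if τ z = true then v z else 1 := by
    intro w τ
    rw [ket, ← Finset.mul_prod_erase _ _ (Finset.mem_univ x), Function.update_self]
    congr 1
    refine Finset.prod_congr rfl fun z hz => ?_
    rw [Function.update_of_ne (Finset.ne_of_mem_erase hz)]
  funext τ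
  simp only [Pi.add_apply, Pi.smul_apply, smul_eq_mul, key]
  cases τ x <;> simp <;> ring

theorem Pres.mul {X Y : COp Λ} (hX : Pres X) (hY : Pres Y) : Pres (X * Y) := fun f hf => by
  rw [← vecMul_vecMul]; exact hY _ (hX f hf)

theorem pres_one : Pres (1 : COp Λ) := fun f hf => by rwa [vecMul_one]

theorem pres_of_map {X : COp Λ}
    (h : ∀ v, InH v → ∃ (c : ℂ) (v' : Λ → ℂ), c ≠ 0 ∧ InH v' ∧ X *ᵥ ket v = c • ket v') :
    Pres X := fun f hf v hv => by
  obtain ⟨c, v', hc, hv', e⟩ := h v hv
  rw [← dotProduct_mulVec, e, dotProduct_smul, smul_eq_mul]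
  exact mul_ne_zero hc (hf v' hv')

theorem pres_Cc {a : Λ → ℂ} (ha : ∀ x, 0 ≤ (a x).re) : Pres (Cc a) :=
  pres_of_map fun v hv => ⟨1, fun x => v x + a x, one_ne_zero,
    fun x => by have := hv x; have := ha x; simp only [Complex.add_re]; linarith,
    by rw [Cc_ket, one_smul]⟩

theorem re_inv_pos {z : ℂ} (hz : 0 < z.re) : 0 < (z⁻¹).re := by
  rw [Complex.inv_re]
  exact div_pos hz (Complex.normSq_pos.2 fun h => by simp [h] at hz)

theorem pres_Ac {a : Λ → ℂ} (ha : ∀ x, 0 ≤ (a x).re) : Pres (Ac a) := by
  refine pres_of_map fun v hv => ?_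
  have h0 : ∀ x, v x ≠ 0 := fun x h => by have := hv x; simp [h] at this
  have h1 : ∀ x, 0 < ((v x)⁻¹ + a x).re := fun x => by
    have := re_inv_pos (hv x); have := ha x; simp only [Complex.add_re]; linarith
  have h2 : ∀ x, (v x)⁻¹ + a x ≠ 0 := fun x h => by have := h1 x; simp [h] at this
  have h3 : ∀ x, 1 + a x * v x = v x * ((v x)⁻¹ + a x) := fun x => by
    have := h0 x; field_simp
  have h4 : ∀ x, 1 + a x * v x ≠ 0 := fun x => by rw [h3]; exact mul_ne_zero (h0 x) (h2 x)
  refine ⟨_, _, Finset.prod_ne_zero_iff.2 fun x _ => h4 x, fun x => ?_, Ac_ket a v h4⟩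
  have : v x / (1 + a x * v x) = ((v x)⁻¹ + a x)⁻¹ := by
    rw [h3, div_mul_eq_div_div, div_self (h0 x), one_div]
  rw [this]
  exact re_inv_pos (h1 x)

theorem pres_fug {ζ : ℝ} (hζ : 0 < ζ) : Pres (cm (fug ζ : BOp Λ)) :=
  pres_of_map fun v hv => ⟨1, fun x => ζ * v x, one_ne_zero,
    fun x => by rw [Complex.re_ofReal_mul]; exact mul_pos hζ (hv x),
    by rw [cm_fug, Dg_ket, one_smul]⟩

theorem pres_step (x y : Λ) {p : ℝ} (hp0 : 0 ≤ p) (hp1 : p ≤ 1) : Pres (cm (step x y p)) := by
  intro f hf v hv
  have e : (f ᵥ* cm (step x y p)) ⬝ᵥ ket v =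
      (1 - p) * (f ⬝ᵥ ket v) + p * (f ⬝ᵥ ket (v ∘ Equiv.swap x y)) := by
    rw [← dotProduct_mulVec, step, map_add, cm_smul, cm_smul, map_one, add_mulVec, smul_mulVec,
      smul_mulVec, one_mulVec, swp_ket, dotProduct_add, dotProduct_smul, dotProduct_smul]
    simp
  rw [e]
  by_cases hxy : x = y
  · subst hxy
    have : v ∘ Equiv.swap x x = v := by funext z; simp
    rw [this]
    have := hf v hv
    intro h; apply this; linear_combination h
  · set g : ℂ → ℂ → ℂ := fun v1 v2 =>
      f ⬝ᵥ ket (Function.update (Function.update v x v1) y v2) with hg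
    have g2 : ∀ v1 v2, g v1 v2 = (1 - v2) * g v1 0 + v2 * g v1 1 := by
      intro v1 v2
      simp only [hg]
      rw [ket_update, dotProduct_add, dotProduct_smul, dotProduct_smul, smul_eq_mul, smul_eq_mul]
    have g1 : ∀ v1 v2, g v1 v2 = (1 - v1) * g 0 v2 + v1 * g 1 v2 := by
      intro v1 v2
      simp only [hg, Function.update_comm hxy]
      rw [ket_update, dotProduct_add, dotProduct_smul, dotProduct_smul, smul_eq_mul, smul_eq_mul]
    have g3 : ∀ v1 v2, g v1 v2 = g 0 0 + (g 1 0 - g 0 0) * v1 + (g 0 1 - g 0 0) * v2 +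
        (g 1 1 - g 1 0 - g 0 1 + g 0 0) * (v1 * v2) := by
      intro v1 v2
      rw [g2 v1 v2, g1 v1 0, g1 v1 1]; ring
    have hst : ∀ v1 v2 : ℂ, 0 < v1.re → 0 < v2.re → g 0 0 + (g 1 0 - g 0 0) * v1 +
        (g 0 1 - g 0 0) * v2 + (g 1 1 - g 1 0 - g 0 1 + g 0 0) * (v1 * v2) ≠ 0 := by
      intro v1 v2 h1 h2
      rw [← g3]
      refine hf _ fun z => ?_
      rcases eq_or_ne z y with rfl | hzy
      · simpa using h2
      · rw [Function.update_of_ne hzy]
        rcases eq_or_ne z x with rfl | hzx
        · simpa using h1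
        · rw [Function.update_of_ne hzx]; exact hv z
    have k := two_var hst hp0 hp1 (hv x) (hv y)
    have e1 : f ⬝ᵥ ket v = g (v x) (v y) := by simp [hg]
    have e2 : f ⬝ᵥ ket (v ∘ Equiv.swap x y) = g (v y) (v x) := by
      simp only [hg]; rw [Equiv.comp_swap_eq_update, Function.update_comm (Ne.symm hxy)]
    rw [e1, e2, g3 (v x) (v y), g3 (v y) (v x)]
    intro h; apply k; linear_combination h

theorem pres_adm {W : BOp Λ} (hW : W ∈ Adm Λ) : Pres (cm W) := by
  induction hW using Submonoid.closure_induction with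
  | mem M hM =>
    rcases hM with ⟨x, y, p, h0, h1, rfl⟩ | ⟨ζ, hζ, rfl⟩
    · exact pres_step x y h0 h1
    · exact pres_fug hζ
  | one => rw [map_one]; exact pres_one
  | mul A B _ _ hA hB => rw [map_mul]; exact hA.mul hB

theorem stable_ket {u : Λ → ℂ} (hu : InH u) : Stable (ket u) := by
  intro v hv
  have e : ket u ⬝ᵥ ket v = ∏ x, (1 + u x * v x) := by
    have : ∀ x, 1 + u x * v x = ∑ j : Bool,
        (if j = true then u x else 1) * (if j = true then v x else 1) := by
      intro x; simp [add_comm]
    simp only [this]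
    rw [Finset.prod_univ_sum]
    simp only [dotProduct, ket, Fintype.piFinset_univ, Finset.prod_mul_distrib]
  rw [e]
  refine Finset.prod_ne_zero_iff.2 fun x _ h => ?_
  have h0 : v x ≠ 0 := fun h => by have := hv x; simp [h] at this
  have h1 : u x = -(v x)⁻¹ := by field_simp; linear_combination h
  have h2 := re_inv_pos (hv x)
  have h3 := hu x
  rw [h1, Complex.neg_re] at h3
  linarith

/-! ### Asano contraction -/

theorem tc_update (φ : Λ → Bool → Bool → ℂ) (x : Λ) (ψ : Bool → Bool → ℂ) (σ τ : Λ → Bool) :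
    tc (Function.update φ x ψ) σ τ =
      ψ (σ x) (τ x) * ∏ z ∈ Finset.univ.erase x, φ z (σ z) (τ z) := by
  rw [tc, of_apply, ← Finset.mul_prod_erase _ _ (Finset.mem_univ x), Function.update_self]
  congr 1
  refine Finset.prod_congr rfl fun z hz => ?_
  rw [Function.update_of_ne (Finset.ne_of_mem_erase hz)]

theorem trace_update (M : COp Λ) (φ : Λ → Bool → Bool → ℂ) (x : Λ) :
    ∃ c00 c01 c10 c11 : ℂ, ∀ ψ : Bool → Bool → ℂ, (M * tc (Function.update φ x ψ)).trace =
      ψ false false * c00 + ψ false true * c01 + ψ true false * c10 + ψ true true * c11 := by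
  let E : Bool → Bool → COp Λ := fun a b =>
    tc (Function.update φ x fun i j => if i = a ∧ j = b then 1 else 0)
  refine ⟨(M * E false false).trace, (M * E false true).trace, (M * E true false).trace,
    (M * E true true).trace, fun ψ => ?_⟩
  have : tc (Function.update φ x ψ) = ψ false false • E false false + ψ false true • E false true +
      ψ true false • E true false + ψ true true • E true true := by
    ext σ τ
    simp only [E, Matrix.add_apply, Matrix.smul_apply, tc_update, smul_eq_mul]
    cases σ x <;> cases τ x <;> simp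
  rw [this]
  simp only [Matrix.mul_add, Matrix.mul_smul, trace_add, trace_smul, smul_eq_mul]

/-- the regularised identity. -/
noncomputable def xi (t : ℝ) : Bool → Bool → ℂ := fun i j =>
  if i = j then (1 + t) / 2 else (1 - t) / 2

theorem trace_xi_ne {M : COp Λ} (hM : Pres M) {t : ℝ} (ht0 : 0 ≤ t) (ht1 : t < 1) :
    (M * tc fun _ => xi t).trace ≠ 0 := by
  let rk : ℂ → ℂ → Bool → Bool → ℂ := fun v u i j =>
    (if i = true then v else 1) * (if j = true then u else 1)
  have key : ∀ S : Finset Λ, ∀ u v : Λ → ℂ, InH u → InH v →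
      (M * tc fun x => if x ∈ S then xi t else rk (v x) (u x)).trace ≠ 0 := by
    intro S
    induction S using Finset.induction_on with
    | empty =>
      intro u v hu hv
      have e : (M * tc fun x => if x ∈ (∅ : Finset Λ) then xi t else rk (v x) (u x)).trace =
          (ket u ᵥ* M) ⬝ᵥ ket v := by
        simp only [Finset.notMem_empty, if_false, rk, trace, diag_apply, mul_apply, tc, of_apply,
          Finset.prod_mul_distrib, dotProduct, vecMul, ket, Finset.sum_mul]
        rw [Finset.sum_comm]
        refine Finset.sum_congr rfl fun _ _ => Finset.sum_congr rfl fun _ _ => by ring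
      rw [e]
      exact hM _ (stable_ket hu) v hv
    | insert x S hx ih =>
      intro u v hu hv
      obtain ⟨c00, c01, c10, c11, hc⟩ :=
        trace_update M (fun z => if z ∈ S then xi t else rk (v z) (u z)) x
      have h1 : ∀ a b : ℂ, 0 < a.re → 0 < b.re → c00 + c01 * a + c10 * b + c11 * (a * b) ≠ 0 := by
        intro a b ha hb
        have hu' : InH (Function.update u x a) := fun z => by
          rcases eq_or_ne z x with rfl | h
          · simpa using ha
          · rw [Function.update_of_ne h]; exact hu z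
        have hv' : InH (Function.update v x b) := fun z => by
          rcases eq_or_ne z x with rfl | h
          · simpa using hb
          · rw [Function.update_of_ne h]; exact hv z
        have h2 := ih _ _ hu' hv'
        have e : (fun z => if z ∈ S then xi t else
            rk (Function.update v x b z) (Function.update u x a z)) =
            Function.update (fun z => if z ∈ S then xi t else rk (v z) (u z)) x (rk b a) := by
          funext z
          rcases eq_or_ne z x with rfl | h
          · simp [hx]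
          · simp [Function.update_of_ne h]
        rw [e, hc] at h2
        intro h; apply h2
        simp only [rk]; simp; linear_combination h
      have e : (fun z => if z ∈ insert x S then xi t else rk (v z) (u z)) =
          Function.update (fun z => if z ∈ S then xi t else rk (v z) (u z)) x (xi t) := by
        funext z
        rcases eq_or_ne z x with rfl | h
        · simp
        · simp [Function.update_of_ne h, h]
      rw [e, hc]
      have h3 := asano h1 ht0 ht1
      intro h; apply h3
      simp only [xi] at h; simp at h; linear_combination h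
  simpa using key Finset.univ (fun _ => 1) (fun _ => 1) (fun _ => by simp) (fun _ => by simp)

end Crest.Agent.N337.LY
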