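import Crest.Agent.N337.LY.Pres

/-!
# Row 337, LY part 4: `ly : LYStmt`
-/

set_option autoImplicit false

namespace Crest.Agent.N337.LY

open Crest.Agent.N337.Slot Matrix Polynomial Filter Topology

variable {Λ : Type} [Fintype Λ] [DecidableEq Λ]

/-! ### polynomial dependence -/

def IsP (f : ℂ → ℂ) : Prop := ∃ p : ℂ[X], ∀ z, p.eval z = f z
def MP (f : ℂ → COp Λ) : Prop := ∀ σ τ, IsP fun z => f z σ τ

theorem IsP.const (c : ℂ) : IsP fun _ => c := ⟨C c, fun _ => by simp⟩
theorem IsP.lin (c : ℂ) : IsP fun z => z * c := ⟨X * C c, fun _ => by rw [eval_mul, eval_X, eval_C]⟩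
theorem IsP.mul {f g : ℂ → ℂ} (hf : IsP f) (hg : IsP g) : IsP fun z => f z * g z := by
  obtain ⟨p, hp⟩ := hf; obtain ⟨q, hq⟩ := hg
  exact ⟨p * q, fun z => by simp [hp, hq]⟩
theorem IsP.sum {ι : Type} [Fintype ι] {f : ι → ℂ → ℂ} (hf : ∀ i, IsP (f i)) :
    IsP fun z => ∑ i, f i z := by
  choose p hp using hf
  exact ⟨∑ i, p i, fun z => by simp [eval_finsetSum, hp]⟩
theorem IsP.prod {ι : Type} [Fintype ι] {f : ι → ℂ → ℂ} (hf : ∀ i, IsP (f i)) :
    IsP fun z => ∏ i, f i z := by
  choose p hp using hf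
  exact ⟨∏ i, p i, fun z => by simp [eval_prod, hp]⟩

omit [Fintype Λ] [DecidableEq Λ] in
theorem MP.const (A : COp Λ) : MP fun _ => A := fun _ _ => IsP.const _
theorem MP.mul {f g : ℂ → COp Λ} (hf : MP f) (hg : MP g) : MP fun z => f z * g z :=
  fun σ τ => IsP.sum fun ρ => (hf σ ρ).mul (hg ρ τ)
theorem MP.trace {f : ℂ → COp Λ} (hf : MP f) : IsP fun z => (f z).trace :=
  IsP.sum fun σ => hf σ σ

omit [DecidableEq Λ] in
theorem MP_Cc (a : Λ → ℂ) : MP fun z => Cc fun x => z * a x := fun σ τ =>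
  IsP.prod fun x => by
    dsimp only
    split_ifs
    exacts [IsP.const _, IsP.lin _, IsP.const _]
omit [DecidableEq Λ] in
theorem MP_Ac (a : Λ → ℂ) : MP fun z => Ac fun x => z * a x := fun σ τ =>
  IsP.prod fun x => by
    dsimp only
    split_ifs
    exacts [IsP.const _, IsP.lin _, IsP.const _]

theorem Cc_zero : Cc (fun _ : Λ => (0 : ℂ)) = 1 := by
  ext σ τ
  by_cases h : σ = τ
  · subst h; simp [Cc, tc]
  · obtain ⟨x, hx⟩ := Function.ne_iff.1 h
    rw [one_apply_ne h]
    exact Finset.prod_eq_zero (Finset.mem_univ x) (by simp [hx])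

theorem Ac_zero : Ac (fun _ : Λ => (0 : ℂ)) = 1 := by
  ext σ τ
  by_cases h : σ = τ
  · subst h; simp [Ac, tc]
  · obtain ⟨x, hx⟩ := Function.ne_iff.1 h
    rw [one_apply_ne h]
    exact Finset.prod_eq_zero (Finset.mem_univ x) (by simp [hx])

theorem xi_one : (tc fun _ : Λ => xi 1) = 1 := by
  ext σ τ
  by_cases h : σ = τ
  · subst h; simp [xi, tc]
  · obtain ⟨x, hx⟩ := Function.ne_iff.1 h
    rw [one_apply_ne h]
    exact Finset.prod_eq_zero (Finset.mem_univ x) (by simp [xi, hx])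

/-- Hurwitz step: a polynomial family of preservers has non-vanishing trace. -/
theorem trace_ne_of_family {f : ℂ → COp Λ} (hf : MP f) (hp : ∀ s : ℂ, 0 < s.re → Pres (f s))
    (h0 : (f 0).trace ≠ 0) {s : ℂ} (hs : 0 < s.re) : (f s).trace ≠ 0 := by
  choose P hP using hf
  set D : ℕ := Finset.univ.sup fun q : (Λ → Bool) × (Λ → Bool) => (P q.1 q.2).natDegree with hD
  have hPD : ∀ σ τ, (P σ τ).natDegree ≤ D := fun σ τ =>
    Finset.le_sup (f := fun q : (Λ → Bool) × (Λ → Bool) => (P q.1 q.2).natDegree)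
      (Finset.mem_univ (σ, τ))
  have key : ∀ t ∈ Set.Ico (0 : ℝ) 1, ‖(f 0 * tc fun _ => xi t).trace‖ * (s.re / ‖s‖) ^ D ≤
      ‖(f s * tc fun _ => xi t).trace‖ := by
    intro t ht
    set Q : ℂ[X] := ∑ σ, ∑ τ, P σ τ * C ((tc fun _ : Λ => xi t) τ σ) with hQ
    have hev : ∀ z, Q.eval z = (f z * tc fun _ => xi t).trace := by
      intro z
      simp only [hQ, eval_finsetSum, eval_mul, eval_C, hP, Matrix.trace, diag_apply, mul_apply]
    have hdeg : Q.natDegree ≤ D :=
      natDegree_sum_le_of_forall_le _ _ fun σ _ => natDegree_sum_le_of_forall_le _ _ fun τ _ =>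
        (natDegree_mul_C_le _ _).trans (hPD σ τ)
    have := L3 Q (fun z hz => by rw [hev]; exact trace_xi_ne (hp z hz) ht.1 ht.2) hs hdeg
    rwa [hev, hev] at this
  have hc : ∀ M : COp Λ, Continuous fun t : ℝ => (M * tc fun _ => xi t).trace := by
    intro M
    simp only [Matrix.trace, diag_apply, mul_apply, tc, of_apply, xi]
    refine continuous_finsetSum _ fun σ _ => continuous_finsetSum _ fun τ _ =>
      continuous_const.mul (continuous_finsetProd _ fun x _ => ?_)
    split_ifs <;> fun_prop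
  have h1 : (1 : ℝ) ∈ closure (Set.Ico (0 : ℝ) 1) := by
    rw [closure_Ico zero_ne_one]; simp
  have := ContinuousWithinAt.closure_le h1
    ((hc (f 0)).norm.mul continuous_const).continuousWithinAt
    (hc (f s)).norm.continuousWithinAt key
  simp only [Pi.mul_apply, xi_one, Matrix.mul_one] at this
  have hs0 : 0 < ‖s‖ := lt_of_lt_of_le hs ((le_abs_self _).trans (Complex.abs_re_le_norm s))
  have hpos : 0 < ‖(f 0).trace‖ * (s.re / ‖s‖) ^ D := by
    have := norm_pos_iff.2 h0
    positivity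
  exact norm_pos_iff.1 (hpos.trans_le this)

/-! ### fugacity covariance -/

theorem Dg_Cc (u : ℂ) (a : Λ → ℂ) : Dg u * Cc a = Cc (fun x => u * a x) * Dg u := by
  ext σ τ
  simp only [Dg, diagonal_mul, mul_diagonal, pow_cnt, Cc, tc, of_apply, ← Finset.prod_mul_distrib]
  refine Finset.prod_congr rfl fun x _ => ?_
  cases σ x <;> cases τ x <;> simp

theorem Dg_Ac (u : ℂ) (a : Λ → ℂ) : Dg u * Ac (fun x => u * a x) = Ac a * Dg u := by
  ext σ τ
  simp only [Dg, diagonal_mul, mul_diagonal, pow_cnt, Ac, tc, of_apply, ← Finset.prod_mul_distrib]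
  refine Finset.prod_congr rfl fun x _ => ?_
  cases σ x <;> cases τ x <;> simp [mul_comm]

theorem cnt_swap (x y : Λ) (τ : Λ → Bool) : cnt (τ ∘ Equiv.swap x y) = cnt τ := by
  unfold cnt
  exact Finset.card_bijective (Equiv.swap x y) (Equiv.bijective _) fun z => by simp

theorem Dg_adm (u : ℂ) {W : BOp Λ} (hW : W ∈ Adm Λ) : Dg u * cm W = cm W * Dg u := by
  induction hW using Submonoid.closure_induction with
  | mem M hM =>
    rcases hM with ⟨x, y, p, _, _, rfl⟩ | ⟨ζ, _, rfl⟩
    · have : Dg u * cm (swp x y) = cm (swp x y) * Dg u := by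
        ext σ τ
        simp only [Dg, diagonal_mul, mul_diagonal, cm_apply, swp, of_apply]
        split_ifs with h
        · rw [h, cnt_swap]; simp
        · simp
      rw [step, map_add, cm_smul, cm_smul, map_one, Matrix.mul_add, Matrix.add_mul,
        Matrix.mul_smul, Matrix.mul_smul, Matrix.smul_mul, Matrix.smul_mul, this,
        Matrix.mul_one, Matrix.one_mul]
    · rw [cm_fug, Dg, Dg, diagonal_mul_diagonal, diagonal_mul_diagonal]
      simp only [mul_comm]
  | one => simp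
  | mul A B _ _ hA hB => rw [map_mul, ← Matrix.mul_assoc, hA, Matrix.mul_assoc, hB,
      Matrix.mul_assoc]

theorem trace_eq_of_Dg {u : ℂ} (hu : u ≠ 0) {A B : COp Λ} (h : Dg u * A = B * Dg u) :
    A.trace = B.trace := by
  refine Finset.sum_congr rfl fun σ _ => ?_
  have := congrFun (congrFun h σ) σ
  simp only [Dg, diagonal_mul, mul_diagonal] at this
  rw [mul_comm] at this
  exact mul_right_cancel₀ (pow_ne_zero _ hu) this

/-! ### derivatives at zero -/

def MD (f : ℂ → COp Λ) (f' : COp Λ) : Prop := ∀ σ τ, HasDerivAt (fun z => f z σ τ) (f' σ τ) 0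

omit [Fintype Λ] [DecidableEq Λ] in
theorem MD.const (A : COp Λ) : MD (fun _ => A) 0 := fun _ _ => hasDerivAt_const _ _
theorem MD.mul {f g : ℂ → COp Λ} {f' g' : COp Λ} (hf : MD f f') (hg : MD g g') :
    MD (fun z => f z * g z) (f' * g 0 + f 0 * g') := fun σ τ => by
  simp only [mul_apply, Matrix.add_apply, ← Finset.sum_add_distrib]
  exact HasDerivAt.fun_sum fun ρ _ => (hf σ ρ).fun_mul (hg ρ τ)
theorem MD.trace {f : ℂ → COp Λ} {f' : COp Λ} (hf : MD f f') :
    HasDerivAt (fun z => (f z).trace) f'.trace 0 :=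
  HasDerivAt.fun_sum fun σ _ => hf σ σ

theorem MD_Cc (a : Λ → ℝ) : MD (fun z => Cc fun x => z * (a x : ℂ)) (cm (crF a)) := by
  intro σ τ
  have h : ∀ x ∈ Finset.univ, HasDerivAt (fun z : ℂ => if σ x = τ x then (1 : ℂ) else
      if σ x = true then z * a x else 0) (if σ x = true ∧ τ x = false then (a x : ℂ) else 0) 0 := by
    intro x _
    cases σ x <;> cases τ x <;> simp [hasDerivAt_const]
    simpa using (hasDerivAt_id (0 : ℂ)).mul_const (a x : ℂ)
  refine (HasDerivAt.fun_finsetProd h).congr_deriv (Eq.symm ?_)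
  simp only [cm_apply, crF, Matrix.sum_apply, Matrix.smul_apply, cr, tens, of_apply, smul_eq_mul]
  push_cast
  refine Finset.sum_congr rfl fun x _ => ?_
  rw [← Finset.mul_prod_erase _ _ (Finset.mem_univ x), if_pos rfl, ← mul_assoc, mul_comm]
  congr 1
  · refine Finset.prod_congr rfl fun y hy => ?_
    rw [if_neg (Finset.ne_of_mem_erase hy)]
    split_ifs <;> simp
  · split_ifs <;> simp

theorem MD_Ac (a : Λ → ℝ) : MD (fun z => Ac fun x => z * (a x : ℂ)) (cm (anF a)) := by
  intro σ τ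
  have h : ∀ x ∈ Finset.univ, HasDerivAt (fun z : ℂ => if σ x = τ x then (1 : ℂ) else
      if τ x = true then z * a x else 0) (if σ x = false ∧ τ x = true then (a x : ℂ) else 0) 0 := by
    intro x _
    cases σ x <;> cases τ x <;> simp [hasDerivAt_const]
    simpa using (hasDerivAt_id (0 : ℂ)).mul_const (a x : ℂ)
  refine (HasDerivAt.fun_finsetProd h).congr_deriv (Eq.symm ?_)
  simp only [cm_apply, anF, Matrix.sum_apply, Matrix.smul_apply, an, tens, of_apply, smul_eq_mul]
  push_cast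
  refine Finset.sum_congr rfl fun x _ => ?_
  rw [← Finset.mul_prod_erase _ _ (Finset.mem_univ x), if_pos rfl, ← mul_assoc, mul_comm]
  congr 1
  · refine Finset.prod_congr rfl fun y hy => ?_
    rw [if_neg (Finset.ne_of_mem_erase hy)]
    split_ifs <;> simp
  · split_ifs <;> simp

theorem eq_at_zero {f g : ℂ → ℂ} (hf : ContinuousAt f 0) (hg : ContinuousAt g 0)
    (h : ∀ u, u ≠ 0 → f u = g u) : f 0 = g 0 :=
  tendsto_nhds_unique_of_eventuallyEq (l := 𝓝[≠] 0) (hf.tendsto.mono_left nhdsWithin_le_nhds)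
    (hg.tendsto.mono_left nhdsWithin_le_nhds) (eventually_nhdsWithin_of_forall h)

/-! ### the two-parameter family -/

/-- the word with creation weights scaled by `u` and annihilation weights scaled by `z`. -/
noncomputable def Fm (W1 W2 : BOp Λ) (a' a c' c : Λ → ℝ) (u z : ℂ) : COp Λ :=
  Cc (fun x => u * (c' x : ℂ)) * Ac (fun x => z * (c x : ℂ)) * cm W1 *
    (Cc (fun x => u * (a' x : ℂ)) * Ac (fun x => z * (a x : ℂ))) * cm W2

theorem ly_adm {W1 W2 : BOp Λ} (h1 : W1 ∈ Adm Λ) (h2 : W2 ∈ Adm Λ) (hZ : 0 < (W1 * W2).trace)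
    {a' a c' c : Λ → ℝ} (ha' : ∀ x, 0 ≤ a' x) (ha : ∀ x, 0 ≤ a x) (hc' : ∀ x, 0 ≤ c' x)
    (hc : ∀ x, 0 ≤ c x) :
    (Ecr c' * Ean c * W1 * (Ecr a' * Ean a) * W2).trace ≤
      (W1 * W2).trace * Real.exp
        (((W1 * (crF a' * anF a) * W2).trace + (anF c * W1 * crF a' * W2).trace +
          (crF c' * W1 * anF a * W2).trace + (crF c' * anF c * W1 * W2).trace) /
          (W1 * W2).trace) := by
  set F := Fm W1 W2 a' a c' c with hF
  have F00 : (F 0 0).trace = ((W1 * W2).trace : ℝ) := by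
    simp only [hF, Fm, zero_mul, Cc_zero, Ac_zero, Matrix.one_mul, Matrix.mul_one]
    rw [← map_mul, cm_trace]
  have hZc : (F 0 0).trace ≠ 0 := by rw [F00]; exact_mod_cast hZ.ne'
  have F11 : (F 1 1).trace = ((Ecr c' * Ean c * W1 * (Ecr a' * Ean a) * W2).trace : ℝ) := by
    simp only [hF, Fm, one_mul, ← cm_Ecr, ← cm_Ean, ← map_mul, cm_trace]
  -- no zeros on the diagonal family
  have hre : ∀ (s : ℂ) (b : Λ → ℝ), 0 < s.re → (∀ x, 0 ≤ b x) → ∀ x, 0 ≤ (s * (b x : ℂ)).re := by
    intro s b hs hb x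
    rw [Complex.re_mul_ofReal]; exact mul_nonneg hs.le (hb x)
  have hne : ∀ s : ℂ, 0 < s.re → (F s s).trace ≠ 0 := fun s hs =>
    trace_ne_of_family (f := fun s => F s s)
      (((((MP_Cc _).mul (MP_Ac _)).mul (MP.const _)).mul ((MP_Cc _).mul (MP_Ac _))).mul
        (MP.const _))
      (fun s hs => ((((pres_Cc (hre s _ hs hc')).mul (pres_Ac (hre s _ hs hc))).mul
        (pres_adm h1)).mul ((pres_Cc (hre s _ hs ha')).mul (pres_Ac (hre s _ hs ha)))).mul
        (pres_adm h2)) hZc hs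
  -- covariance
  have hcov : ∀ u z : ℂ, u ≠ 0 → (F 1 (u * z)).trace = (F u z).trace := by
    intro u z hu
    refine trace_eq_of_Dg hu ?_
    simp only [hF, Fm, one_mul, mul_assoc u z, Matrix.mul_assoc]
    rw [← Matrix.mul_assoc (Dg u), Dg_Cc, Matrix.mul_assoc, ← Matrix.mul_assoc (Dg u), Dg_Ac,
      Matrix.mul_assoc, ← Matrix.mul_assoc (Dg u), Dg_adm u h1, Matrix.mul_assoc,
      ← Matrix.mul_assoc (Dg u), Dg_Cc, Matrix.mul_assoc, ← Matrix.mul_assoc (Dg u), Dg_Ac,
      Matrix.mul_assoc, Dg_adm u h2]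
  obtain ⟨G, hG⟩ : IsP fun z => (F 1 z).trace :=
    (((((MP.const _).mul (MP_Ac _)).mul (MP.const _)).mul ((MP.const _).mul (MP_Ac _))).mul
      (MP.const _)).trace
  dsimp only at hG
  have G0 : G.eval 0 = ((W1 * W2).trace : ℝ) := by
    obtain ⟨R, hR⟩ : IsP fun u => (F u 0).trace :=
      (((((MP_Cc _).mul (MP.const _)).mul (MP.const _)).mul ((MP_Cc _).mul (MP.const _))).mul
        (MP.const _)).trace
    dsimp only at hR
    have := eq_at_zero (f := fun _ => G.eval 0) (g := fun u => R.eval u) continuousAt_const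
      R.continuous.continuousAt fun u hu => by rw [hG, hR, ← hcov u 0 hu, mul_zero]
    rw [this, hR, F00]
  have hroot : ∀ z : ℂ, ¬ (z.im = 0 ∧ z.re < 0) → G.eval z ≠ 0 := by
    intro z hz
    by_cases hz0 : z = 0
    · rw [hz0, G0]; exact_mod_cast hZ.ne'
    obtain ⟨s, hs, hs0⟩ : ∃ s : ℂ, s ^ 2 = z ∧ 0 ≤ s.re := by
      obtain ⟨w, hw⟩ := IsAlgClosed.exists_pow_nat_eq z (n := 2) (by norm_num)
      rcases le_total 0 w.re with h0 | h0
      · exact ⟨w, hw, h0⟩
      · exact ⟨-w, by rw [neg_sq, hw], by simpa using h0⟩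
    have hsne : s ≠ 0 := fun h => hz0 (by rw [← hs, h]; simp)
    rcases hs0.lt_or_eq with hp | hp
    · rw [hG, ← hs, pow_two, hcov s s hsne]; exact hne s hp
    · exfalso
      apply hz
      have him : s.im ≠ 0 := fun h => hsne (Complex.ext hp.symm h)
      rw [← hs, pow_two, Complex.mul_im, Complex.mul_re, ← hp]
      exact ⟨by simp, by simpa using him⟩
  -- the derivative at zero
  set K : ℂ → COp Λ := fun u =>
    Cc (fun x => u * (c' x : ℂ)) * cm (anF c) * cm W1 * Cc (fun x => u * (a' x : ℂ)) * cm W2 +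
    Cc (fun x => u * (c' x : ℂ)) * cm W1 * (Cc (fun x => u * (a' x : ℂ)) * cm (anF a)) * cm W2
    with hK
  have hKd : ∀ u, HasDerivAt (fun z => (F u z).trace) (K u).trace 0 := by
    intro u
    have := (((((MD.const (Cc fun x => u * (c' x : ℂ))).mul (MD_Ac c)).mul (MD.const (cm W1))).mul
      ((MD.const (Cc fun x => u * (a' x : ℂ))).mul (MD_Ac a))).mul (MD.const (cm W2))).trace
    refine this.congr_deriv ?_
    simp only [hK, zero_mul, Ac_zero, Matrix.mul_zero, Matrix.zero_mul, add_zero, zero_add,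
      Matrix.mul_one, Matrix.add_mul]
  have hKu : ∀ u, u ≠ 0 → (K u).trace = u * G.derivative.eval 0 := by
    intro u hu
    have e1 : HasDerivAt (fun z : ℂ => G.eval (u * z)) (G.derivative.eval (u * 0) * (u * 1)) 0 :=
      (G.hasDerivAt (u * 0)).comp (0 : ℂ) ((hasDerivAt_id (0 : ℂ)).const_mul u)
    have e2 : (fun z : ℂ => G.eval (u * z)) = fun z => (F u z).trace := by
      funext z; rw [hG, hcov u z hu]
    rw [e2] at e1
    rw [(hKd u).unique e1]; simp [mul_comm]
  have hK' : HasDerivAt (fun u => (K u).trace)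
      (((W1 * (crF a' * anF a) * W2).trace + (anF c * W1 * crF a' * W2).trace +
          (crF c' * W1 * anF a * W2).trace + (crF c' * anF c * W1 * W2).trace : ℝ) : ℂ) 0 := by
    have e1 := (((((MD_Cc c').mul (MD.const (cm (anF c)))).mul (MD.const (cm W1))).mul
      (MD_Cc a')).mul (MD.const (cm W2))).trace
    have e2 := ((((MD_Cc c').mul (MD.const (cm W1))).mul
      ((MD_Cc a').mul (MD.const (cm (anF a))))).mul (MD.const (cm W2))).trace
    have e3 := e1.fun_add e2
    simp only [hK, trace_add]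
    refine e3.congr_deriv ?_
    simp only [zero_mul, Cc_zero, Matrix.mul_zero, add_zero, Matrix.mul_one, Matrix.one_mul,
      Matrix.add_mul, trace_add, ← map_mul, cm_trace]
    push_cast
    ring
  have hK0 : (K 0).trace = 0 * G.derivative.eval 0 :=
    eq_at_zero (f := fun u => (K u).trace) (g := fun u => u * G.derivative.eval 0)
      hK'.continuousAt (by fun_prop) hKu
  have hKall : (fun u => (K u).trace) = fun u => u * G.derivative.eval 0 := by
    funext u
    by_cases hu : u = 0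
    · rw [hu]; exact hK0
    · exact hKu u hu
  rw [hKall] at hK'
  have hG' := hK'.unique ((hasDerivAt_id (0 : ℂ)).mul_const (G.derivative.eval 0))
  have L := L4 G hroot
  rw [one_mul] at hG'
  rw [hG, F11, G0, ← hG', ← Complex.ofReal_div, Complex.ofReal_re, Complex.norm_real,
    Complex.norm_real, Real.norm_of_nonneg hZ.le] at L
  exact (le_abs_self _).trans L

theorem closure_step {E : Type} [TopologicalSpace E] {S : Set E} {f Z q : E → ℝ}
    (hf : Continuous f) (hZ : Continuous Z) (hq : Continuous q)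
    (h : ∀ y ∈ S, 0 < Z y → f y ≤ Z y * Real.exp (q y / Z y)) {x : E} (hx : x ∈ closure S)
    (hx0 : 0 < Z x) : f x ≤ Z x * Real.exp (q x / Z x) :=
  ContinuousWithinAt.closure_le (f := f) (g := fun y => Z y * Real.exp (q y / Z y))
    ((isOpen_lt continuous_const hZ).inter_closure ⟨hx0, hx⟩) hf.continuousWithinAt
    (hZ.continuousAt.mul (Real.continuous_exp.continuousAt.comp
      (hq.continuousAt.div hZ.continuousAt hx0.ne'))).continuousWithinAt
    fun y hy => h y hy.2 hy.1

theorem cont_tr (A B : BOp Λ) : Continuous fun q : BOp Λ × BOp Λ => (A * q.1 * B * q.2).trace :=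
  (((continuous_const.matrix_mul continuous_fst).matrix_mul continuous_const).matrix_mul
    continuous_snd).matrix_trace

end Crest.Agent.N337.LY

namespace Crest.Agent.N337.Slot

/-- **(LY)** -/
theorem ly : LYStmt := by
  intro Λ _ _ W1 W2 h1 h2 hZ a' a c' c ha' ha hc' hc
  have hmem : (W1, W2) ∈ closure ((Adm Λ : Set (BOp Λ)) ×ˢ (Adm Λ : Set (BOp Λ))) := by
    rw [closure_prod_eq]; exact ⟨h1, h2⟩
  have c1 : Continuous fun q : BOp Λ × BOp Λ => (q.1 * q.2).trace := by
    simpa using LY.cont_tr (1 : BOp Λ) 1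
  have c2 : Continuous fun q : BOp Λ × BOp Λ => (q.1 * (crF a' * anF a) * q.2).trace := by
    simpa using LY.cont_tr (1 : BOp Λ) (crF a' * anF a)
  have c3 : Continuous fun q : BOp Λ × BOp Λ => (crF c' * anF c * q.1 * q.2).trace := by
    simpa using LY.cont_tr (crF c' * anF c) 1
  have c4 : Continuous fun q : BOp Λ × BOp Λ => (q.1 * (crF a' * anF a) * q.2).trace +
      (anF c * q.1 * crF a' * q.2).trace + (crF c' * q.1 * anF a * q.2).trace +
      (crF c' * anF c * q.1 * q.2).trace :=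
    ((c2.add (LY.cont_tr (anF c) (crF a'))).add (LY.cont_tr (crF c') (anF a))).add c3
  have key := LY.closure_step (LY.cont_tr (Ecr c' * Ean c) (Ecr a' * Ean a)) c1 c4
    (fun q hq hq0 => LY.ly_adm hq.1 hq.2 hq0 ha' ha hc' hc) hmem hZ
  exact key

end Crest.Agent.N337.Slot
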