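import Crest.Agent.N337.LY.Main
import Crest.Agent.N337.KV.Defs
import Crest.Agent.N337.BasicE

/-!
# Row 337, LY part 5: `NewtonStmt` from `ly`, `SlotStmt` and `LimStmt`
-/

set_option autoImplicit false

namespace Crest.Agent.N337.LY

open Crest.Agent.N337.Slot Crest.Agent.N337.KV Matrix Filter Topology

variable {Λ : Type} [Fintype Λ] [DecidableEq Λ]

/-- entrywise nonnegative. -/
def NN (A : BOp Λ) : Prop := ∀ σ τ, 0 ≤ A σ τ

theorem NN.mul {A B : BOp Λ} (hA : NN A) (hB : NN B) : NN (A * B) := fun σ τ =>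
  Finset.sum_nonneg fun ρ _ => mul_nonneg (hA σ ρ) (hB ρ τ)

theorem NN.one : NN (1 : BOp Λ) := fun σ τ => by rw [one_apply]; split_ifs <;> norm_num

theorem NN.pow {A : BOp Λ} (hA : NN A) (k : ℕ) : NN (A ^ k) := by
  induction k with
  | zero => rw [pow_zero]; exact NN.one
  | succ k ih => rw [pow_succ]; exact ih.mul hA

omit [DecidableEq Λ] in
theorem NN.trace [Fintype (Λ → Bool)] {A : BOp Λ} (hA : NN A) : 0 ≤ A.trace :=
  Finset.sum_nonneg fun σ _ => hA σ σ

theorem adm_nn {W : BOp Λ} (hW : W ∈ Adm Λ) : NN W := by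
  induction hW using Submonoid.closure_induction with
  | mem M hM =>
    rcases hM with ⟨x, y, p, h0, h1, rfl⟩ | ⟨ζ, hζ, rfl⟩
    · intro σ τ
      simp only [step, Matrix.add_apply, Matrix.smul_apply, smul_eq_mul, swp, of_apply]
      refine add_nonneg (mul_nonneg (by linarith) (NN.one σ τ)) (mul_nonneg h0 ?_)
      split_ifs <;> norm_num
    · intro σ τ
      rw [fug, diagonal_apply]; split_ifs
      · positivity
      · exact le_rfl
  | one => exact NN.one
  | mul A B _ _ hA hB => exact hA.mul hB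

omit [DecidableEq Λ] in
theorem Ecr_nn {a : Λ → ℝ} (ha : ∀ x, 0 ≤ a x) : NN (Ecr a) := fun σ τ =>
  Finset.prod_nonneg fun x _ => by
    dsimp only; split_ifs
    exacts [zero_le_one, ha x, le_rfl]

theorem crF_nn {a : Λ → ℝ} (ha : ∀ x, 0 ≤ a x) : NN (crF a) := fun σ τ => by
  simp only [crF, Matrix.sum_apply, Matrix.smul_apply, smul_eq_mul]
  refine Finset.sum_nonneg fun x _ => mul_nonneg (ha x) (Finset.prod_nonneg fun y _ => ?_)
  dsimp only; split_ifs <;> norm_num

omit [DecidableEq Λ] in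
theorem Ean_eq (a : Λ → ℝ) : Ean a = (Ecr a)ᵀ := by
  ext σ τ
  refine Finset.prod_congr rfl fun x _ => ?_
  dsimp only
  cases σ x <;> cases τ x <;> simp

theorem anF_eq (a : Λ → ℝ) : anF a = (crF a)ᵀ := by
  rw [anF, crF, transpose_sum]
  refine Finset.sum_congr rfl fun x _ => ?_
  rw [transpose_smul]
  congr 1
  ext σ τ
  refine Finset.prod_congr rfl fun y _ => ?_
  dsimp only
  cases σ y <;> cases τ y <;> simp

theorem cr_apply (x : Λ) (σ ρ : Λ → Bool) :
    cr x σ ρ = if σ x = true ∧ ρ = Function.update σ x false then 1 else 0 := by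
  simp only [cr, tens, of_apply]
  split_ifs with h
  · obtain ⟨h1, rfl⟩ := h
    refine Finset.prod_eq_one fun y _ => ?_
    by_cases hy : y = x
    · subst hy; simp [h1]
    · simp [hy]
  · by_contra hne
    apply h
    have key := Finset.prod_ne_zero_iff.1 hne
    have hx := key x (Finset.mem_univ x)
    simp only [if_true, ne_eq, ite_eq_right_iff, one_ne_zero, imp_false, not_not] at hx
    refine ⟨hx.1, funext fun y => ?_⟩
    by_cases hy : y = x
    · subst hy; simp [hx.2]
    · have := key y (Finset.mem_univ y)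
      simp only [hy, if_false, ne_eq, ite_eq_right_iff, one_ne_zero, imp_false, not_not] at this
      simp [hy, this]

theorem cr_mul_apply (x : Λ) (M : BOp Λ) (σ τ : Λ → Bool) :
    (cr x * M) σ τ = if σ x = true then M (Function.update σ x false) τ else 0 := by
  simp only [mul_apply, cr_apply]
  split_ifs with h
  · rw [Finset.sum_eq_single (Function.update σ x false)]
    · simp [h]
    · intro ρ _ hρ; simp [hρ]
    · simp
  · simp [h]

/-- slots where two configurations differ. -/
def dif (σ τ : Λ → Bool) : Finset Λ := Finset.univ.filter fun x => σ x ≠ τ x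

theorem crF_pow_le' {a : Λ → ℝ} (ha : ∀ x, 0 ≤ a x) (k : ℕ) (σ τ : Λ → Bool) :
    (crF a ^ k) σ τ ≤ k.factorial * (if (dif σ τ).card = k then Ecr a σ τ else 0) := by
  induction k generalizing σ with
  | zero =>
    by_cases h : σ = τ
    · subst h; simp [dif, Ecr, tens]
    · rw [pow_zero, one_apply_ne h]
      have := Ecr_nn ha σ τ
      split_ifs <;> simp [this]
  | succ k ih =>
    have hE := Ecr_nn ha σ τ
    have key : ∀ x, a x * (cr x * crF a ^ k) σ τ ≤
        if x ∈ dif σ τ then k.factorial * (if (dif σ τ).card = k + 1 then Ecr a σ τ else 0)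
        else 0 := by
      intro x
      have hR : 0 ≤ (if x ∈ dif σ τ then
          (k.factorial : ℝ) * (if (dif σ τ).card = k + 1 then Ecr a σ τ else 0) else 0) := by
        split_ifs <;> positivity
      rw [cr_mul_apply]
      by_cases hx : σ x = true
      swap
      · rw [if_neg hx, mul_zero]; exact hR
      rw [if_pos hx]
      refine (mul_le_mul_of_nonneg_left (ih _) (ha x)).trans ?_
      have e1 : ∀ ρ : Λ → Bool, Ecr a ρ τ =
          (if ρ x = τ x then 1 else if ρ x = true then a x else 0) *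
          ∏ y ∈ Finset.univ.erase x, (if ρ y = τ y then 1 else if ρ y = true then a y else 0) := by
        intro ρ
        rw [Ecr, tens, of_apply, ← Finset.mul_prod_erase _ _ (Finset.mem_univ x)]
      have e2 : ∏ y ∈ Finset.univ.erase x, (if Function.update σ x false y = τ y then (1 : ℝ)
          else if Function.update σ x false y = true then a y else 0) =
          ∏ y ∈ Finset.univ.erase x, (if σ y = τ y then 1 else if σ y = true then a y else 0) :=
        Finset.prod_congr rfl fun y hy => by rw [Function.update_of_ne (Finset.ne_of_mem_erase hy)]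
      by_cases hτ : τ x = true
      · have : Ecr a (Function.update σ x false) τ = 0 := by rw [e1]; simp [hτ]
        rw [this, ite_self, mul_zero, mul_zero]; exact hR
      · have hτ' : τ x = false := by simpa using hτ
        have hm : x ∈ dif σ τ := by simp [dif, hx, hτ']
        have e3 : dif (Function.update σ x false) τ = (dif σ τ).erase x := by
          ext y
          by_cases hy : y = x
          · subst hy; simp [dif, hτ']
          · simp [dif, hy]
        have e4 : a x * Ecr a (Function.update σ x false) τ = Ecr a σ τ := by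
          rw [e1, e1 σ, e2]; simp [hx, hτ']
        have e5 := Finset.card_erase_add_one hm
        rw [if_pos hm, e3]
        by_cases hc : ((dif σ τ).erase x).card = k
        · rw [if_pos hc, if_pos (by omega), ← e4]; exact le_of_eq (by ring)
        · rw [if_neg hc, if_neg (by omega)]; simp
    rw [pow_succ']
    nth_rewrite 1 [crF]
    rw [Finset.sum_mul, Matrix.sum_apply]
    simp only [Matrix.smul_mul, Matrix.smul_apply, smul_eq_mul]
    refine (Finset.sum_le_sum fun x _ => key x).trans ?_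
    rw [← Finset.sum_filter, Finset.filter_mem_eq_inter, Finset.univ_inter, Finset.sum_const,
      nsmul_eq_mul, Nat.factorial_succ]
    split_ifs with hc
    · rw [hc]; push_cast; exact le_of_eq (by ring)
    · simp

theorem crF_pow_le {a : Λ → ℝ} (ha : ∀ x, 0 ≤ a x) (k : ℕ) (σ τ : Λ → Bool) :
    (crF a ^ k) σ τ ≤ k.factorial * Ecr a σ τ := by
  refine (crF_pow_le' ha k σ τ).trans (mul_le_mul_of_nonneg_left ?_ (Nat.cast_nonneg _))
  split_ifs
  exacts [le_rfl, Ecr_nn ha σ τ]

theorem opt_lemma {x C q : ℝ} {k : ℕ} (hk : 1 ≤ k) (hC : 0 ≤ C) (hq : 0 ≤ q)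
    (h : ∀ α : ℝ, 0 < α → α ^ k * x ≤ C * Real.exp (α * q)) :
    x ≤ C * (Real.exp 1 * q / k) ^ k := by
  have hk0 : (0 : ℝ) < k := by exact_mod_cast hk
  have key : ∀ r ∈ Set.Ioi q, x ≤ C * (Real.exp 1 * r / k) ^ k := by
    intro r hr
    have hr0 : 0 < r := lt_of_le_of_lt hq hr
    have h1 := h (k / r) (by positivity)
    have h2 : Real.exp (k / r * q) ≤ Real.exp 1 ^ k := by
      rw [← Real.exp_nat_mul, mul_one]
      refine Real.exp_le_exp.2 ?_
      rw [div_mul_eq_mul_div, div_le_iff₀ hr0]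
      exact mul_le_mul_of_nonneg_left (le_of_lt hr) hk0.le
    have h3 : (k / r) ^ k * x ≤ C * Real.exp 1 ^ k := h1.trans (mul_le_mul_of_nonneg_left h2 hC)
    have h4 : x = (r / k) ^ k * ((k / r) ^ k * x) := by
      rw [← mul_assoc, ← mul_pow]
      have : r / k * (k / r) = 1 := by field_simp
      rw [this, one_pow, one_mul]
    rw [h4, mul_div_assoc, mul_pow]
    calc _ ≤ (r / k) ^ k * (C * Real.exp 1 ^ k) := mul_le_mul_of_nonneg_left h3 (by positivity)
      _ = _ := by ring
  have hm : q ∈ closure (Set.Ioi q) := by rw [closure_Ioi]; exact Set.self_mem_Ici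
  exact ContinuousWithinAt.closure_le (f := fun _ => x)
    (g := fun r => C * (Real.exp 1 * r / k) ^ k) hm continuousWithinAt_const
    (Continuous.continuousWithinAt (by fun_prop)) key

theorem newton_adm {W : BOp Λ} (hW : W ∈ Adm Λ) (hZ : 0 < W.trace) {a a' : Λ → ℝ}
    (ha : ∀ x, 0 ≤ a x) (ha' : ∀ x, 0 ≤ a' x) {k : ℕ} (hk : 1 ≤ k) :
    (crF a' ^ k * anF a ^ k * W).trace / W.trace ≤
      (k.factorial : ℝ) ^ 2 * (Real.exp 1 * ((crF a' * anF a * W).trace / W.trace) / k) ^ k := by
  have hWn := adm_nn hW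
  have hanN : NN (anF a) := fun σ τ => by rw [anF_eq]; exact crF_nn ha τ σ
  have hq : 0 ≤ (crF a' * anF a * W).trace / W.trace :=
    div_nonneg (((crF_nn ha').mul hanN).mul hWn).trace hZ.le
  refine opt_lemma hk (by positivity) hq fun α hα => ?_
  have hb : ∀ x, 0 ≤ α * a' x := fun x => mul_nonneg hα.le (ha' x)
  have hcr : crF (fun x => α * a' x) = α • crF a' := by
    simp only [crF, Finset.smul_sum, mul_smul]
  have E0 : Ecr (fun _ : Λ => (0 : ℝ)) = 1 := by
    ext σ τ
    have := congrFun (congrFun (cm_Ecr (fun _ : Λ => (0 : ℝ))) σ) τ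
    simp only [Complex.ofReal_zero, Cc_zero, cm_apply] at this
    rw [one_apply] at this ⊢
    split_ifs at this ⊢ <;> exact_mod_cast this
  have A0 : Ean (fun _ : Λ => (0 : ℝ)) = 1 := by rw [Ean_eq, E0, transpose_one]
  have c0 : crF (fun _ : Λ => (0 : ℝ)) = 0 := by simp [crF]
  have a0 : anF (fun _ : Λ => (0 : ℝ)) = 0 := by simp [anF]
  have L := ly_adm (Adm Λ).one_mem hW (by simpa using hZ) (a' := fun x => α * a' x) (a := a)
    (c' := fun _ => 0) (c := fun _ => 0) hb ha (fun _ => le_rfl) (fun _ => le_rfl)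
  simp only [E0, A0, c0, a0, Matrix.one_mul, Matrix.zero_mul, trace_zero, add_zero, hcr,
    Matrix.smul_mul, trace_smul, smul_eq_mul] at L
  have M : α ^ k * (crF a' ^ k * anF a ^ k * W).trace ≤
      (k.factorial : ℝ) ^ 2 * (Ecr (fun x => α * a' x) * Ean a * W).trace := by
    have e : α ^ k * (crF a' ^ k * anF a ^ k * W).trace =
        (crF (fun x => α * a' x) ^ k * anF a ^ k * W).trace := by
      rw [hcr, smul_pow, Matrix.smul_mul, Matrix.smul_mul, trace_smul, smul_eq_mul]
    rw [e]
    simp only [Matrix.trace, diag_apply, mul_apply, Finset.mul_sum, Finset.sum_mul]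
    refine Finset.sum_le_sum fun σ _ => Finset.sum_le_sum fun τ _ =>
      Finset.sum_le_sum fun ρ _ => ?_
    have h1 := crF_pow_le hb k σ ρ
    have h2 : (anF a ^ k) ρ τ ≤ k.factorial * Ean a ρ τ := by
      rw [anF_eq, Ean_eq, ← transpose_pow]; exact crF_pow_le ha k τ ρ
    have h3 := mul_le_mul h1 h2 (hanN.pow k ρ τ)
      (mul_nonneg (Nat.cast_nonneg _) (Ecr_nn hb σ ρ))
    calc _ ≤ _ := mul_le_mul_of_nonneg_right h3 (hWn τ σ)
      _ = _ := by ring
  rw [← mul_div_assoc, div_le_iff₀ hZ, ← mul_div_assoc]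
  calc _ ≤ _ := M
    _ ≤ _ := mul_le_mul_of_nonneg_left L (by positivity)
    _ = _ := by ring

theorem step_mem {x y : Λ} {p : ℝ} (h0 : 0 ≤ p) (h1 : p ≤ 1) : step x y p ∈ Adm Λ :=
  Submonoid.subset_closure (Or.inl ⟨x, y, p, h0, h1, rfl⟩)

theorem per_mem {P : BOp Λ} (hP : P ∈ Adm Λ) {r : Λ → Λ → ℝ} (h : ℝ) {δ : ℝ}
    (hr : ∀ q : Λ × Λ, 0 ≤ δ * r q.1 q.2 / 2 ∧ δ * r q.1 q.2 / 2 ≤ 1) :
    per P r h δ ∈ Adm Λ := by
  refine (Adm Λ).mul_mem ((Adm Λ).mul_mem hP
    (Submonoid.subset_closure (Or.inr ⟨_, Real.exp_pos _, rfl⟩))) ?_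
  refine (Adm Λ).list_prod_mem fun M hM => ?_
  rw [List.mem_reverse, List.mem_map] at hM
  obtain ⟨q, _, rfl⟩ := hM
  exact step_mem (hr q).1 (hr q).2

end Crest.Agent.N337.LY

namespace Crest.Agent.N337

open Crest.Agent.N337.Slot Crest.Agent.N337.KV Crest.Agent.N337.LY Matrix Filter Topology

/-- **(N)** -/
theorem newton_of (hS : SlotStmt) (hL : LimStmt) : NewtonStmt := by
  intro X _ _ n J β h hn hJ hβ a a' ha ha' k hk
  obtain ⟨U, c0, w, hw, hU, hP, hSp, hSm, hH⟩ := hS X n J h hn hJ
  obtain ⟨L1, -⟩ := hL X n J β h c0 U hβ hU hH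
  set V : ℕ → BOp (X × Fin n) := fun M =>
    per (U * U.transpose) (fun u v : X × Fin n => J u.1 v.1 / 2) h (β / M) with hV
  have cxm : ∀ A B : BOp (X × Fin n), cx (A * B) = cx A * cx B := fun A B => map_mul cm A B
  have lin : ∀ (b : X → ℝ) (S : X → Op X n) (T : X × Fin n → BOp (X × Fin n)),
      (∀ x, cx U * S x = cx (∑ i : Fin n, T (x, i)) * cx U) →
      cx U * (∑ x, ((b x : ℝ) : ℂ) • S x) = cx (∑ u : X × Fin n, b u.1 • T u) * cx U := by
    intro b S T hT
    have e : cx (∑ u : X × Fin n, b u.1 • T u) =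
        ∑ x, ((b x : ℝ) : ℂ) • cx (∑ i : Fin n, T (x, i)) := by
      ext σ τ
      simp [Fintype.sum_prod_type, Matrix.sum_apply, Finset.mul_sum]
    rw [e, Matrix.mul_sum, Matrix.sum_mul]
    exact Finset.sum_congr rfl fun x _ => by rw [Matrix.mul_smul, Matrix.smul_mul, hT]
  have hm : cx U * SmF n a' = cx (crF fun u : X × Fin n => a' u.1) * cx U := lin a' _ _ hSm
  have hp : cx U * SpF n a = cx (anF fun u : X × Fin n => a u.1) * cx U := lin a _ _ hSp
  have imul : ∀ {A B : Op X n} {A' B' : BOp (X × Fin n)}, cx U * A = cx A' * cx U →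
      cx U * B = cx B' * cx U → cx U * (A * B) = cx (A' * B') * cx U := by
    intro A B A' B' h1 h2
    rw [← Matrix.mul_assoc, h1, Matrix.mul_assoc, h2, cxm, Matrix.mul_assoc]
  have ione : cx U * (1 : Op X n) = cx (1 : BOp (X × Fin n)) * cx U := by
    have : cx (1 : BOp (X × Fin n)) = 1 := map_one cm
    rw [this, Matrix.mul_one, Matrix.one_mul]
  have ipow : ∀ {A : Op X n} {A' : BOp (X × Fin n)}, cx U * A = cx A' * cx U →
      ∀ j : ℕ, cx U * A ^ j = cx (A' ^ j) * cx U := by
    intro A A' h1 j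
    induction j with
    | zero => simpa only [pow_zero] using ione
    | succ j ih => rw [pow_succ, pow_succ]; exact imul ih h1
  have T1 := L1 _ _ (imul (ipow hm k) (ipow hp k))
  have T2 := L1 _ _ (imul hm hp)
  have T0 := L1 _ _ ione
  rw [ev_one] at T0
  have hPm : U * U.transpose ∈ Adm (X × Fin n) := by
    rw [hP]
    refine (Adm _).list_prod_mem fun M hM => ?_
    obtain ⟨q, hq, rfl⟩ := List.mem_map.1 hM
    exact step_mem (hw q hq).1 (hw q hq).2
  have hδ : Tendsto (fun M : ℕ => β / M) atTop (𝓝 0) := tendsto_const_div_atTop_nhds_zero_nat β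
  have hVm : ∀ᶠ M : ℕ in atTop, V M ^ M ∈ Adm (X × Fin n) := by
    have : ∀ᶠ M : ℕ in atTop, ∀ q : (X × Fin n) × (X × Fin n),
        β / M * (J q.1.1 q.2.1 / 2) / 2 < 1 := by
      refine eventually_all.2 fun q => ?_
      have := (hδ.mul_const (J q.1.1 q.2.1 / 2)).div_const 2
      exact this.eventually (gt_mem_nhds (by simp))
    filter_upwards [this] with M hM
    refine (Adm _).pow_mem (per_mem hPm h fun q => ⟨?_, (hM q).le⟩) M
    have := hJ.nonneg q.1.1 q.2.1
    positivity
  have hZ : ∀ᶠ M : ℕ in atTop, (V M ^ M).trace ≠ 0 := by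
    filter_upwards [T0.eventually (lt_mem_nhds zero_lt_one)] with M hM h0
    have h0' : (per (U * U.transpose) (fun u v : X × Fin n => J u.1 v.1 / 2) h (β / M) ^ M).trace
      = 0 := h0
    rw [h0', div_zero] at hM
    exact lt_irrefl _ hM
  refine le_of_tendsto_of_tendsto T1
    ((((T2.const_mul (Real.exp 1)).div_const k).pow k).const_mul _) ?_
  filter_upwards [hVm, hZ] with M h1 h2
  exact newton_adm h1 (lt_of_le_of_ne (adm_nn h1).trace h2.symm) (fun u => ha u.1)
    (fun u => ha' u.1) hk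

end Crest.Agent.N337
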